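import Mathlib
import Vale.Agent.P262.SteinitzDefs
import Vale.Agent.P262.Upper
import Vale.Agent.P262.Lower

namespace Vale.Agent.Results.P262.SteinitzNearOptimal

open Vale.Agent.P262

/-- `(1/2) √d ≤ S_2(d) ≤ 2230 √d (1 + log d)` for every `d ≥ 1`. -/
theorem result : ∀ d : ℕ, 1 ≤ d →
    BddAbove (betaSet d) ∧ 1 / 2 * Real.sqrt d ≤ S2 d ∧ S2 d ≤ 2230 * Real.sqrt d * (1 + Real.log d) := by
  intro d hd
  have hb := betaSet_bdd d hd
  refine ⟨hb, S2_ge d hd hb, ?_⟩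
  refine (S2_le d hd).trans ?_
  have h1 := Lam_le d hd
  have h2 := mul_le_mul_of_nonneg_left h1 (Real.sqrt_nonneg (d : ℝ))
  linarith

end Vale.Agent.Results.P262.SteinitzNearOptimal
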