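import Mathlib
import Vale.Agent.P262.SteinitzDefs
import Vale.Agent.P262B.Final

namespace Vale.Agent.Results.P262.SteinitzOptimal

open Vale.Agent.P262

/-- The Euclidean Steinitz–Bergström conjecture: `S_2(d) = O(√d)`.  Together with the lower bound
`(1/2) √d ≤ S_2(d)` this determines the order of growth of the Euclidean Steinitz constant. -/
theorem result : ∃ C : ℝ, 0 < C ∧ ∀ d : ℕ, 1 ≤ d →
    BddAbove (betaSet d) ∧ 1 / 2 * Real.sqrt d ≤ S2 d ∧ S2 d ≤ C * Real.sqrt d :=
  Vale.Agent.P262B.main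

end Vale.Agent.Results.P262.SteinitzOptimal
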